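import Crest.Agent.N76.Bw.Geo

-- ▼ part N76/Bw/Count
section

/-! # Row 76, BRW (helper95): counting directions and tubes in a group. -/

set_option autoImplicit false

open Finset
open scoped RealInnerProductSpace

namespace Crest.Agent.N76.Bw

open Crest.Agent.N76.Red (V)
open Crest.Agent.N76.L

variable {n M : ℕ}
variable {T : Tw n M} {κ : ℕ} {hκ : κ ≤ n} {b m₀ b' a : ℕ} {G : Finset (Nd n)}
  {O : OrthonormalBasis (Fin n) ℝ (V n)} {ζ₀ : V n} {cs : Nd n → Fin (κ + 1) → Nd n}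

lemma three_rho (hT : T.Std) : (3 * (T.Λ * ((M : ℝ) + 1))) ^ n ≤ (T.k : ℝ) ^ n := by
  have := hT.one_le_rho
  refine pw_le hT n (by linarith) (hT.rho_le.trans (pow_le_pow_right₀ hT.one_le_Λ (by norm_num)))

/-- many caps at a point -/
lemma point_card (hT : T.Std) {i j : ℕ} (hij : i ≤ j) (hj : j ≤ M) {c : Nd n} (hc : c ∈ T.al i) :
    T.mm i j ≤ (T.k : ℝ) ^ n * ((T.nr i j c).image fun z => z.2.2).card := by
  classical
  refine (T.mmc i j hij hj c hc).1.trans ?_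
  rw [mul_comm]
  refine card_le_image_mul (T.nr i j c) (fun z => z.2.2) fun p _ => le_trans ?_ (three_rho hT)
  refine card_nd_cap hT.k_pos j _ (c.1 / (T.k : ℤ) ^ (2 * (j - i))) p (ctr T.k i c) (tm T.k i c)
    hT.one_le_rho fun z hz => ?_
  obtain ⟨h1, h2⟩ := mem_filter.1 hz
  obtain ⟨-, h3⟩ := T.mem_nr.1 h1
  refine ⟨h3.1, h2, h3.2.2.trans ?_⟩
  gcongr ?_ * _
  exact hT.gap_le hj

/-- few caps in a family -/
lemma theta_card (H : Grp T hκ b m₀ b' a (2 * a) G O ζ₀ cs) (hT : T.Std) (hb : b ≤ b')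
    (hb' : b' ≤ b + a) (ha : 1 ≤ a) (hM : b + 2 * a + 1 ≤ M) {c₀ : Nd n} (h₀ : c₀ ∈ G)
    (j : Fin (κ + 1)) (L : Finset (Nd n))
    (hL : ∀ z ∈ L, z ∈ T.al (b + a) ∧ ∃ c ∈ G, Nr T.k T.Λ b' (b + a) (cs c j) z) :
    ((L.image fun z => z.2.2).card : ℝ) * T.mm (b + a) (b + 2 * a) ≤
      (T.k : ℝ) ^ n * (T.Λ ^ (4 * n + 1) * (T.k : ℝ) ^ n * T.mm b' (b + 2 * a + 1)) := by
  classical
  obtain ⟨hk, hk', hΛ, hMΛ, hnΛ, hΛk⟩ := hT.num
  have h100 := hT.Λ_ge.1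
  have hM0 : (0 : ℝ) ≤ M := Nat.cast_nonneg _
  set Z := T.nS (b + a) (b + 2 * a) L with hZ
  set Θ := L.image fun z => z.2.2 with hΘ
  have hK : (0 : ℝ) < (T.k : ℝ) ^ (b + a) := by positivity
  set W := (Θ ×ˢ Z).filter fun w => ‖iv w.1 - (T.k : ℝ) ^ (b + a) • fq T.k (b + 2 * a) w.2‖ ≤
    T.Λ * (M + 1) with hW
  have h1 : Θ.card * T.mm (b + a) (b + 2 * a) ≤ (W.card : ℝ) := by
    refine Pk.le_card_fib W Prod.fst Θ fun θ hθ => ?_
    obtain ⟨z, hz, rfl⟩ := mem_image.1 hθ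
    refine (T.mmc _ _ (by omega) (by omega) z (hL z hz).1).1.trans
      (Nat.cast_le.2 (card_le_card_of_injOn (fun z' => (z.2.2, z')) (fun z' hz' => ?_) ?_))
    · have h2 := T.mem_nr.1 (mem_coe.1 hz')
      refine mem_coe.2 (mem_filter.2 ⟨mem_filter.2 ⟨mem_product.2 ⟨hθ,
        T.mem_nS.2 ⟨h2.1, z, hz, h2.2⟩⟩, ?_⟩, rfl⟩)
      have e : iv z.2.2 - (T.k : ℝ) ^ (b + a) • fq T.k (b + 2 * a) z' =
          (T.k : ℝ) ^ (b + a) • (fq T.k (b + a) z - fq T.k (b + 2 * a) z') := by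
        rw [smul_sub]; congr 1; exact (smul_inv_smul₀ hK.ne' _).symm
      rw [e, norm_smul, Real.norm_eq_abs, abs_of_pos hK, norm_sub_rev, mul_comm, ← le_div_iff₀ hK]
      refine (h2.2.fq_le (M := M) (by linarith) (by omega)).trans ?_
      gcongr; linarith
    · intro z' _ z'' _ e; exact (Prod.ext_iff.1 e).2
  have h2 : (W.card : ℝ) ≤ Z.card * (T.k : ℝ) ^ n := by
    refine Pk.card_le_fib W Prod.snd Z (fun w hw => (mem_product.1 (mem_filter.1 hw).1).2)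
      fun z _ => le_trans ?_ (three_rho hT)
    have e : ((W.filter fun w => w.2 = z).image Prod.fst).card =
        (W.filter fun w => w.2 = z).card := card_image_of_injOn fun w hw w' hw' e =>
      Prod.ext e ((mem_filter.1 hw).2.trans (mem_filter.1 hw').2.symm)
    rw [← e]
    refine card_lattice _ ((T.k : ℝ) ^ (b + a) • fq T.k (b + 2 * a) z) hT.one_le_rho
      fun p hp => ?_
    obtain ⟨w, hw, rfl⟩ := mem_image.1 hp
    obtain ⟨w1, w2⟩ := mem_filter.1 hw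
    rw [← w2]; exact (mem_filter.1 w1).2
  obtain ⟨g1, g2⟩ := T.mem_nr.1 (H.near c₀ h₀ j)
  have h3 := T.EN2 hT (b := b') (l := b + 2 * a) (by omega) hM g1 (Z := Z) (T.nS_subset_al _ _ _)
    (fun z hz => by
      obtain ⟨-, z₁, hz₁, n1⟩ := T.mem_nS.1 hz
      obtain ⟨-, c, hc, n2⟩ := hL z₁ hz₁
      have n3 := hT.trans hb' (by omega) (by omega) n2 n1
      have n0 := (T.mem_nr.1 (H.near c hc j)).2
      have n4 := hT.trans hb (by omega) (by omega) n0 n3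
      obtain ⟨-, e2, e3, e4⟩ := cell_eq hk (H.cell c hc c₀ h₀)
      refine ⟨?_, by rw [← fq_congr T.k b' (H.caps c hc c₀ h₀ j)]; exact n3.2.1, ?_⟩
      · rw [n4.1, g2.1, ediv_ediv hk, show 2 * (b' - b) + 2 * (b + 2 * a - b') = 2 * a + 2 * a by
          omega, show 2 * (b + 2 * a - b) = 2 * a + 2 * a by omega, ← ediv_ediv hk c.1,
          ← ediv_ediv hk c₀.1, e2]
      · set K : ℝ := (T.k : ℝ) ^ (b + 2 * a) with hK2
        have hKb : (0 : ℝ) < (T.k : ℝ) ^ b := by positivity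
        have p1 : (T.k : ℝ) ^ (2 * b + 2 * a) = (T.k : ℝ) ^ b * K := by rw [hK2]; ring
        have p2 : (T.k : ℝ) ^ (2 * b') ≤ (T.k : ℝ) ^ b * K := by
          rw [← p1]; exact pow_le_pow_right₀ hk' (by omega)
        have p3 : (T.k : ℝ) ^ b' ≤ K := pow_le_pow_right₀ hk' (by omega)
        have t0 := g2.tm_le hk hb
        rw [abs_sub_comm] at t0 e3
        have a1 := n4.ps_at (M := M) (by linarith) (by omega) (tm T.k b' (cs c₀ j))
          (2 * ((T.k : ℝ) ^ b * K)) ((abs_sub_le _ (tm T.k b c₀) _).trans (by linarith))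
        have a2 := g2.ps_at (M := M) (by linarith) (by omega) (tm T.k b' (cs c₀ j))
          ((T.k : ℝ) ^ b * K) (t0.trans p2)
        have a3 := e4 (tm T.k b' (cs c₀ j))
        rw [ps_tm, norm_sub_rev] at a2
        have q1 : 2 * (2 * ((T.k : ℝ) ^ b * K)) * (T.Λ * M / (T.k : ℝ) ^ b) =
          4 * (T.Λ * M * K) := by field_simp; ring
        have q2 : 2 * ((T.k : ℝ) ^ b * K) * (T.Λ * M / (T.k : ℝ) ^ b) =
          2 * (T.Λ * M * K) := by field_simp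
        have hK0 : 0 < K := by positivity
        have q3 : T.Λ * M * (T.k : ℝ) ^ b' ≤ T.Λ * M * K := by gcongr
        have q4 : 8 * (T.Λ * M) + n ≤ T.k := by
          have : T.Λ ^ 2 ≤ T.Λ ^ 3 := pow_le_pow_right₀ hΛ (by norm_num)
          nlinarith
        refine (norm_sub_le_norm_sub_add_norm_sub _ (ps T.k b c (tm T.k b' (cs c₀ j))) _).trans
          ((add_le_add a1 ((norm_sub_le_norm_sub_add_norm_sub _
            (ps T.k b c₀ (tm T.k b' (cs c₀ j))) _).trans (add_le_add a3 a2))).trans ?_)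
        rw [q1, q2, pow_succ]
        nlinarith)
  calc _ ≤ _ := h1
    _ ≤ _ := h2
    _ ≤ _ := by rw [mul_comm]; gcongr

/-- multiplicity of the directions -/
lemma cap_mult (H : Grp T hκ b m₀ b' a (2 * a) G O ζ₀ cs) (hT : T.Std) (c₀ : Nd n)
    (Θ : Finset (Fin n → ℤ)) (v₀ : Fin κ → ℝ)
    (hΘ : ∀ θ ∈ Θ, (∃ c ∈ G, ∃ z ∈ T.nr b (b + a) c, z.2.2 = θ) ∧
      ∀ l, |dv O hκ T.k b a c₀ θ l - v₀ l| ≤ 1 / (T.k : ℝ) ^ a) :
    (Θ.card : ℝ) ≤ (T.k : ℝ) ^ n := by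
  obtain ⟨hk, hk', hΛ, hMΛ, hnΛ, hΛk⟩ := hT.num
  have h100 := hT.Λ_ge.1
  have hK : (0 : ℝ) < (T.k : ℝ) ^ (b + a) := by positivity
  have hΛ2 : 1 ≤ T.Λ ^ 2 := one_le_pow₀ hΛ
  refine (card_sep' Θ iv O (fun l => if h : (l : ℕ) < κ then
      (T.k : ℝ) ^ (b + a) * ⟪O l, fq T.k b c₀⟫ - (T.k : ℝ) ^ a * v₀ ⟨l, h⟩ / 2
      else (T.k : ℝ) ^ (b + a) * ⟪O l, ζ₀⟫) one_pos (fun _ => T.Λ ^ 2) (fun _ => hΛ2)
    (fun p _ q _ h => one_le_norm_iv_sub h) fun θ hθ l => ?_).trans ?_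
  · obtain ⟨⟨c, hc, z, hz, rfl⟩, h2⟩ := hΘ θ hθ
    by_cases hl : (l : ℕ) < κ
    · rw [dif_pos hl]
      have h3 := h2 ⟨l, hl⟩
      have e : ⟪O l, iv z.2.2⟫ - ((T.k : ℝ) ^ (b + a) * ⟪O l, fq T.k b c₀⟫ -
          (T.k : ℝ) ^ a * v₀ ⟨l, hl⟩ / 2) =
          -((T.k : ℝ) ^ a / 2) * (dv O hκ T.k b a c₀ z.2.2 ⟨l, hl⟩ - v₀ ⟨l, hl⟩) := by
        have : Fin.castLE hκ ⟨l, hl⟩ = l := rfl
        simp only [dv, tv, this, inner_sub_right, real_inner_smul_right]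
        field_simp; ring
      rw [e, abs_mul, abs_neg, abs_of_pos (by positivity)]
      calc _ ≤ (T.k : ℝ) ^ a / 2 * (1 / (T.k : ℝ) ^ a) := by gcongr
        _ = 1 / 2 := by field_simp
        _ ≤ _ := by linarith
    · rw [dif_neg hl]
      have h3 := H.slab c hc (b + a) (by omega) (by omega) z hz l (not_lt.1 hl)
      have e : ⟪O l, iv z.2.2⟫ - (T.k : ℝ) ^ (b + a) * ⟪O l, ζ₀⟫ =
          ⟪O l, fq T.k (b + a) z - ζ₀⟫ * (T.k : ℝ) ^ (b + a) := by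
        simp only [fq, inner_sub_right, real_inner_smul_right]; field_simp
      rw [e, abs_mul, abs_of_pos hK, ← le_div_iff₀ hK]
      exact h3
  · simp only [div_one, prod_const, card_univ, Fintype.card_fin]
    refine pw_le hT n (by positivity) ?_
    rw [pow_succ' _ 2]
    gcongr; linarith

/-- tubes of one direction through a cube -/
lemma tube_card (H : Grp T hκ b m₀ b' a (2 * a) G O ζ₀ cs) (hT : T.Std)
    (hM : b + 2 * a + 1 ≤ M) {c₀ : Nd n} (h₀ : c₀ ∈ G) {u : ℕ} (hu1 : 1 ≤ u) (hu : u ≤ a) {ρ : ℝ}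
    (hρ : 1 ≤ ρ) (hρu : ρ ≤ (T.k : ℝ) ^ u) (θ : Fin n → ℤ) (x₀ : Fin κ → ℝ) (τ₀ : ℝ)
    (S : Finset (Nd n)) (hS : ∀ z ∈ S, z.2.2 = θ ∧ ∃ c ∈ G, z ∈ T.nr b (b + a) c ∧
      |ct T.k b a c₀ c - τ₀| ≤ ρ ∧ ∀ l, |cx O hκ T.k b a c₀ b c l - x₀ l| ≤ ρ) :
    (S.card : ℝ) * T.a (b + a) ≤ T.Λ ^ ((9 * n + 2) * u + (12 * n + 3)) *
      (T.k : ℝ) ^ (κ * u + 3 * n) * (T.mm (b + a) (b + a + u + 1) * T.a (b + a + u + 1)) := by
  obtain ⟨hk, hk', hΛ, hMΛ, hnΛ, hΛk⟩ := hT.num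
  have h100 := hT.Λ_ge.1
  have hM0 : (0 : ℝ) ≤ M := Nat.cast_nonneg _
  have hK : (0 : ℝ) < (T.k : ℝ) ^ (b + a) := by positivity
  have hmm := T.mm1 (b + a) (b + a + u + 1)
  have ha1 := T.a0 (b + a + u + 1)
  rcases S.eq_empty_or_nonempty with rfl | ⟨z₁, hz₁⟩
  · simp only [card_empty, Nat.cast_zero, zero_mul]; positivity
  have hal : S ⊆ T.al (b + a) := fun z hz => by
    obtain ⟨-, c, -, h, -⟩ := hS z hz
    exact (T.mem_nr.1 h).1
  have hwin : ∀ z ∈ S, z.1 = c₀.1 / (T.k : ℤ) ^ (2 * a) := fun z hz => by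
    obtain ⟨-, c, hc, h, -⟩ := hS z hz
    rw [(T.mem_nr.1 h).2.1, Nat.add_sub_cancel_left, (cell_eq hk (H.cell c hc c₀ h₀)).2.1]
  have h1 := T.EN1 hT (i := b + a) (u := u) (by omega) hκ hal hwin O ζ₀ (lf T.k b ζ₀ c₀) 0
    (fun z hz l hl => by
      obtain ⟨-, c, hc, h, -⟩ := hS z hz
      have a1 := lf_near (M := M) hk hΛ (by linarith) (by omega) (by omega) (T.mem_nr.1 h).2
        (H.slab c hc (b + a) (by omega) (by omega) z h) l hl
      have a2 := H.leaf c hc c₀ h₀ l hl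
      rw [sub_zero]
      change |⟪O l, lf T.k (b + a) ζ₀ z - _⟫| ≤ _
      rw [← sub_add_sub_cancel _ (lf T.k b ζ₀ c), inner_add_right]
      refine (abs_add_le _ _).trans ((add_le_add a1 a2).trans ?_)
      have : 3 * T.Λ ^ 2 + 1 ≤ T.Λ ^ 4 := by
        have : 100 ≤ T.Λ ^ 2 := by nlinarith
        nlinarith
      nlinarith)
    (fun j h1 h2 z' hz' => by
      obtain ⟨b1, z, hz, b2⟩ := T.mem_nS.1 hz'
      obtain ⟨-, c, hc, h, -⟩ := hS z hz
      exact H.slab c hc j (by omega) (by omega) z'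
        (T.mem_nr.2 ⟨b1, hT.trans (by omega) h1.le (by omega) (T.mem_nr.1 h).2 b2⟩))
  have h2 := T.EN2 hT (b := b + a) (l := b + a + u) (by omega) (by omega) (hal hz₁)
    (Z := T.nS (b + a) (b + a + u) S) (T.nS_subset_al _ _ _) (fun z' hz' => by
      obtain ⟨-, z, hz, n1⟩ := T.mem_nS.1 hz'
      obtain ⟨e1, c, hc, h, t1, x1⟩ := hS z hz
      obtain ⟨e2, c', hc', h', t2, x2⟩ := hS z₁ hz₁
      have ew : z.1 = z₁.1 := (hwin z hz).trans (hwin z₁ hz₁).symm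
      have et : tm T.k (b + a) z₁ = tm T.k (b + a) z := by rw [tm, tm, ew]
      have ec := e1.trans e2.symm
      refine ⟨ew ▸ n1.1, by rw [← fq_congr T.k _ ec]; exact n1.2.1, ?_⟩
      obtain ⟨d1, d2⟩ := cube_close H hT (c₀ := c₀) hc hc' hρ
        ((abs_sub_le _ τ₀ _).trans (by linarith [abs_sub_comm τ₀ (ct T.k b a c₀ c')]))
        (fun l => (abs_sub_le _ (x₀ l) _).trans (by
          linarith [x1 l, abs_sub_comm (x₀ l) (cx O hκ T.k b a c₀ b c' l), x2 l]))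
      have a1 := n1.ps_le (M := M) (by linarith) (by omega)
      have a2 : ‖ctr T.k (b + a) z - ctr T.k (b + a) z₁‖ ≤
          T.Λ ^ 3 / 2 * ρ * (T.k : ℝ) ^ (b + a) := by
        rw [← ps_tm, ← ps_tm T.k (b + a) z₁, et, ps_sub_ps ec _ (tm T.k b c)]
        have b1 := (T.mem_nr.1 h).2.ps_le (M := M) (by linarith) (by omega)
        have b2 := (T.mem_nr.1 h').2.ps_at (M := M) (by linarith) (by omega) _ _ d1
        have b3 := d2 (tm T.k b c)
        rw [ps_tm] at b3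
        rw [norm_sub_rev] at b2
        have q : 2 * (2 * ρ * (T.k : ℝ) ^ (2 * b + a)) * (T.Λ * M / (T.k : ℝ) ^ b) =
          4 * (T.Λ * M) * (ρ * (T.k : ℝ) ^ (b + a)) := by field_simp; ring
        refine (norm_sub_le_norm_sub_add_norm_sub _ (ctr T.k b c) _).trans
          ((add_le_add b1 ((norm_sub_le_norm_sub_add_norm_sub _ (ps T.k b c' (tm T.k b c)) _).trans
            (add_le_add b3 b2))).trans ?_)
        rw [q]
        have q2 : T.Λ * M * (T.k : ℝ) ^ (b + a) ≤ T.Λ * M * (ρ * (T.k : ℝ) ^ (b + a)) := by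
          gcongr; exact le_mul_of_one_le_left hK.le hρ
        have q3 : 6 * (T.Λ * M) ≤ T.Λ ^ 3 / 10 := by
          have : T.Λ ^ 2 ≤ T.Λ ^ 3 := pow_le_pow_right₀ hΛ (by norm_num)
          nlinarith
        have q4 : 0 ≤ ρ * (T.k : ℝ) ^ (b + a) := by positivity
        have q5 : 0 ≤ T.Λ ^ 3 := by positivity
        nlinarith
      rw [et]
      refine (norm_sub_le_norm_sub_add_norm_sub _ (ctr T.k (b + a) z) _).trans
        ((add_le_add a1 a2).trans ?_)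
      have q1 : ρ * (T.k : ℝ) ^ (b + a) ≤ (T.k : ℝ) ^ (b + a + u) := by
        rw [pow_add _ (b + a), mul_comm]; gcongr
      have q2 : T.Λ * M + T.Λ ^ 3 / 2 ≤ T.k := by
        have : T.Λ ^ 2 ≤ T.Λ ^ 3 := pow_le_pow_right₀ hΛ (by norm_num)
        nlinarith
      have q3 : T.Λ ^ 3 / 2 * (ρ * (T.k : ℝ) ^ (b + a)) ≤ T.Λ ^ 3 / 2 * (T.k : ℝ) ^ (b + a + u) := by
        gcongr
      rw [pow_succ _ (b + a + u)]
      nlinarith [pow_pos (show (0 : ℝ) < T.k by linarith) (b + a + u)])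
  have h3 := T.a_step hT (l := b + a + u) (by omega)
  have ha2 := T.a0 (b + a + u)
  calc _ ≤ _ := h1
    _ ≤ T.Λ ^ ((9 * n + 2) * u) * (T.k : ℝ) ^ (κ * u) *
        (T.Λ ^ (4 * n + 1) * (T.k : ℝ) ^ n * T.mm (b + a) (b + a + u + 1)) *
        (T.Λ ^ (8 * n + 2) * (T.k : ℝ) ^ (2 * n) * T.a (b + a + u + 1)) := by gcongr
    _ = _ := by ring

end Crest.Agent.N76.Bw
end

-- ▼ part N76/Bw/Main

/-! # Row 76 (helper95): `BRW n κ` from Lemma G. -/

set_option autoImplicit false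

open Finset
open scoped RealInnerProductSpace

namespace Crest.Agent.N76.Bw

open Crest.Agent.N76.Red (V)
open Crest.Agent.N76.L

variable {n M : ℕ}
variable {T : Tw n M} {κ : ℕ} {hκ : κ ≤ n} {b m₀ a : ℕ} {G : Finset (Nd n)}
  {O : OrthonormalBasis (Fin n) ℝ (V n)} {ζ₀ : V n} {cs : Nd n → Fin (κ + 1) → Nd n}

lemma of_lg (hT : T.Std) {x y s t : ℝ} (hx : 0 < x) (hy : 0 < y)
    (h : T.lg x + s ≤ T.lg y + t) : x * (T.k : ℝ) ^ s ≤ y * (T.k : ℝ) ^ t := by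
  have hk : (1 : ℝ) < T.k := by have := hT.k_ge; exact_mod_cast (by omega : 1 < T.k)
  have e : ∀ z : ℝ, 0 < z → z = (T.k : ℝ) ^ T.lg z := fun z hz =>
    (Real.rpow_logb (by linarith) hk.ne' hz).symm
  calc x * (T.k : ℝ) ^ s = (T.k : ℝ) ^ (T.lg x + s) := by
        rw [Real.rpow_add (by linarith), ← e x hx]
    _ ≤ (T.k : ℝ) ^ (T.lg y + t) := Real.rpow_le_rpow_of_exponent_le hk.le h
    _ = _ := by rw [Real.rpow_add (by linarith), ← e y hy]

lemma exists_scale {K ρ : ℝ} (hρ : 1 ≤ ρ) (hK : 1 ≤ K) {a : ℕ} (ha : 1 ≤ a) (h : ρ ≤ K ^ a) :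
    ∃ u, 1 ≤ u ∧ u ≤ a ∧ ρ ≤ K ^ u ∧ K ^ u ≤ K * ρ := by
  classical
  have hex : ∃ u, 1 ≤ u ∧ ρ ≤ K ^ u := ⟨a, ha, h⟩
  obtain ⟨h1, h2⟩ := Nat.find_spec hex
  refine ⟨Nat.find hex, h1, Nat.find_min' hex ⟨ha, h⟩, h2, ?_⟩
  obtain ⟨v, hv⟩ : ∃ v, Nat.find hex = v + 1 := ⟨Nat.find hex - 1, by omega⟩
  rw [hv, pow_succ']
  refine mul_le_mul_of_nonneg_left ?_ (by linarith)
  rcases v with _ | v
  · simpa using hρ
  · have := Nat.find_min hex (m := v + 1) (by omega)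
    exact (not_le.1 fun h => this ⟨by omega, h⟩).le

lemma exists_reps {α β : Type*} [DecidableEq β] (G : Finset α) (f : α → β) :
    ∃ Y ⊆ G, Set.InjOn f Y ∧ Y.card = (G.image f).card ∧ ∀ c ∈ G, ∃ y ∈ Y, f y = f c := by
  obtain ⟨Y, h1, h2, h3⟩ := exists_subset_injOn_image_eq_of_surjOn (f := f) (G : Set α) (G.image f)
    (by rw [coe_image]; exact Set.surjOn_image _ _)
  refine ⟨Y, coe_subset.1 h1, h2, by rw [← h3, card_image_of_injOn h2], fun c hc => ?_⟩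
  have := mem_image_of_mem f hc
  rw [← h3] at this
  exact mem_image.1 this

/-- the statement of Lemma G at fixed parameters -/
def GBody (κ : ℕ) (c N σ Λ : ℝ) : Prop :=
  open Classical in
  ∀ (α ι : Type) (Y : Finset α) (x : α → Fin κ → ℝ) (τ : α → ℝ)
      (Θ : Fin (κ + 1) → Finset ι) (v : ι → Fin κ → ℝ) (I : α → Finset ι),
      (∀ y ∈ Y, |τ y| ≤ Λ * N ∧ ∀ l, |x y l| ≤ Λ * N) →
      N ^ (((κ : ℝ) + 1) * σ) ≤ Λ * Y.card →
      (∀ (x₀ : Fin κ → ℝ) (τ₀ : ℝ),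
        ((Y.filter fun y => |τ y - τ₀| ≤ 1 ∧ ∀ l, |x y l - x₀ l| ≤ 1).card : ℝ) ≤ Λ) →
      (∀ ρ : ℝ, 1 ≤ ρ → ρ ≤ N → ∃ F : Finset ((Fin κ → ℝ) × ℝ),
        (F.card : ℝ) * ρ ^ (((κ : ℝ) + 1) * σ) ≤ Λ * Y.card ∧
        ∀ y ∈ Y, ∃ f ∈ F, |τ y - f.2| ≤ Λ * ρ ∧ ∀ l, |x y l - f.1 l| ≤ Λ * ρ) →
      (∀ j, (Θ j).Nonempty) →
      (∀ y ∈ Y, ∀ j, ((Θ j).card : ℝ) ≤ Λ * (I y ∩ Θ j).card) →
      N ^ c ≤ (Θ 0).card →
      (∀ v₀ : Fin κ → ℝ,
        (((Θ 0).filter fun θ => ∀ l, |v θ l - v₀ l| ≤ 1 / N).card : ℝ) ≤ Λ) →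
      (∀ j, ∀ θ ∈ Θ j, ∀ l, |v θ l| ≤ Λ) →
      (∀ θ : Fin (κ + 1) → ι, (∀ j, θ j ∈ Θ j) →
        1 ≤ Λ * |(Matrix.of fun i j : Fin (κ + 1) =>
          (Fin.cons 1 (v (θ j)) : Fin (κ + 1) → ℝ) i).det|) →
      (∀ j, ∀ θ ∈ Θ j, ∀ ρ : ℝ, 1 ≤ ρ → ρ ≤ N → ∀ (x₀ : Fin κ → ℝ) (τ₀ : ℝ),
        ∃ F : Finset (Fin κ → ℝ), (F.card : ℝ) ≤ Λ * ρ ^ ((κ : ℝ) * σ) ∧
        ∀ y ∈ Y, θ ∈ I y → |τ y - τ₀| ≤ ρ → (∀ l, |x y l - x₀ l| ≤ ρ) →
          ∃ g ∈ F, ∀ l, |x y l - τ y * v θ l - g l| ≤ Λ) →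
      False

/-- a good group contradicts Lemma G -/
lemma grp_false (H : Grp T hκ b m₀ (b + (n * m₀ + 2)) a (2 * a) G O ζ₀ cs) (hT : T.Std)
    (hk2 : T.Λ ^ ((9 * n + 2) * M + (12 * n + 6)) ≤ T.k) (hne : G.Nonempty)
    (hm : n * m₀ + 2 ≤ a) (hM : b + 2 * a + 1 ≤ M) {c σ Γ : ℝ} {e : ℕ} (he : n * m₀ + 2 ≤ e)
    (hσ0 : 0 ≤ σ) (hσ1 : σ ≤ 1) (hΓ : (T.k : ℝ) ^ (4 * n + 2 + e) ≤ Γ)
    (hca : (n : ℝ) ≤ c * a)
    (h1 : ∀ u ≤ a, ((G.image (cell T.k b (a + u))).card : ℝ) *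
      ((T.k : ℝ) ^ u) ^ (((κ : ℝ) + 1) * σ) ≤ Γ * (G.image (cell T.k b a)).card)
    (h2 : T.mm (b + (n * m₀ + 2)) (b + 2 * a + 1) ≤
      T.mm (b + (n * m₀ + 2)) (b + a) * T.mm (b + a) (b + 2 * a) * (T.k : ℝ) ^ e)
    (h3 : (T.k : ℝ) ^ (2 * c * a) ≤ T.mm (b + (n * m₀ + 2)) (b + a))
    (h4 : ∀ u, 1 ≤ u → u ≤ a → T.mm (b + a) (b + a + u + 1) * T.a (b + a + u + 1) *
      (T.k : ℝ) ^ (κ * u) ≤ T.a (b + a) * (((T.k : ℝ) ^ u) ^ ((κ : ℝ) * σ) * (T.k : ℝ) ^ e))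
    (hG : GBody κ c ((T.k : ℝ) ^ a) σ Γ) : False := by
  classical
  obtain ⟨hk, hk', hΛ, hMΛ, hnΛ, hΛk⟩ := hT.num
  have h100 := hT.Λ_ge.1
  have hM0 : (0 : ℝ) ≤ M := Nat.cast_nonneg _
  set K : ℝ := (T.k : ℝ) with hK
  have hK0 : 0 < K := by linarith
  set b' := b + (n * m₀ + 2) with hb'
  have hp : ∀ r, r ≤ 4 * n + 2 + e → K ^ r ≤ Γ := fun r hr => (pow_le_pow_right₀ hk' hr).trans hΓ
  have hl : ∀ r, r ≤ (9 * n + 2) * M + (12 * n + 6) → T.Λ ^ r ≤ K := fun r hr =>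
    (pow_le_pow_right₀ hΛ hr).trans hk2
  have hΛ2 : T.Λ ^ 2 ≤ K := hl 2 (by omega)
  have hKΓ : K ≤ Γ := by simpa using hp 1 (by omega)
  have hnK : (n : ℝ) ≤ K := by nlinarith
  have hΛM : 2 * (T.Λ * M) ≤ K := by nlinarith
  have hΛM0 : 0 ≤ T.Λ * M := by positivity
  have hKa : 1 ≤ K ^ a := one_le_pow₀ hk'
  obtain ⟨c₀, h₀⟩ := hne
  obtain ⟨Y, hYG, hYi, hYc, -⟩ := exists_reps G (cell T.k b a)
  set L : Fin (κ + 1) → Finset (Nd n) := fun j => T.nS b' (b + a) (G.image fun c => cs c j) with hL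
  have hLm : ∀ j, ∀ z ∈ L j, z ∈ T.al (b + a) ∧ ∃ c ∈ G, Nr T.k T.Λ b' (b + a) (cs c j) z :=
    fun j z hz => by
      obtain ⟨a1, g, hg, a2⟩ := T.mem_nS.1 hz
      obtain ⟨c, hc, rfl⟩ := mem_image.1 hg
      exact ⟨a1, c, hc, a2⟩
  have htr : ∀ c ∈ G, ∀ j z, Nr T.k T.Λ b' (b + a) (cs c j) z → Nr T.k T.Λ b (b + a) c z :=
    fun c hc j z hz => hT.trans (by omega) (by omega) (by omega) (T.mem_nr.1 (H.near c hc j)).2 hz
  have hsub : ∀ c ∈ G, ∀ j, ((T.nr b' (b + a) (cs c j)).image fun z => z.2.2) ⊆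
      (L j).image fun z => z.2.2 := fun c hc j =>
    image_subset_image (T.nr_subset_nS (mem_image_of_mem _ hc))
  have hpt : ∀ c ∈ G, ∀ j, T.mm b' (b + a) ≤
      K ^ n * ((T.nr b' (b + a) (cs c j)).image fun z => z.2.2).card := fun c hc j =>
    point_card hT (by omega) (by omega) (T.mem_nr.1 (H.near c hc j)).1
  refine hG (Nd n) (Fin n → ℤ) Y (cx O hκ T.k b a c₀ b) (ct T.k b a c₀)
    (fun j => (L j).image fun z => z.2.2) (dv O hκ T.k b a c₀)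
    (fun y => univ.biUnion fun j => (T.nr b' (b + a) (cs y j)).image fun z => z.2.2)
    (fun y hy => ?_) ?_ (fun x₀ τ₀ => ?_) (fun ρ hρ hρN => ?_) (fun j => ?_) (fun y hy j => ?_) ?_
    (fun v₀ => ?_) (fun j θ hθ l => ?_) (fun θ hθ => ?_) (fun j θ hθ ρ hρ hρN x₀ τ₀ => ?_)
  · obtain ⟨a1, a2⟩ := bd H hT h₀ (hYG hy)
    exact ⟨a1.trans (le_mul_of_one_le_left (by linarith) (by linarith)),
      fun l => (a2 l).trans (by gcongr; linarith)⟩
  · rw [hYc]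
    refine le_trans (le_mul_of_one_le_left (by positivity) ?_) (h1 a le_rfl)
    exact_mod_cast card_pos.2 (image_nonempty.2 ⟨c₀, h₀⟩)
  · refine (mult H hT c₀ ((filter_subset _ _).trans hYG)
      (hYi.mono (coe_subset.2 (filter_subset _ _))) x₀ τ₀ fun c hc => (mem_filter.1 hc).2).trans
      (hp _ (by omega))
  · obtain ⟨u, u1, u2, u3, u4⟩ := exists_scale hρ hk' (by omega) hρN
    obtain ⟨R, hRG, -, hRc, hR⟩ := exists_reps G (cell T.k b (a + u))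
    refine ⟨R.image fun c => (cx O hκ T.k b a c₀ b c, ct T.k b a c₀ c), ?_, fun y hy => ?_⟩
    · rw [hYc]
      refine le_trans ?_ (h1 u u2)
      rw [← hRc]
      gcongr
      exact card_image_le
    · obtain ⟨r, hr, er⟩ := hR y (hYG hy)
      obtain ⟨-, -, e3, e4⟩ := cell_eq hk er.symm
      refine ⟨_, mem_image_of_mem _ hr, ?_, fun l => ?_⟩
      · simp only [ct]
        rw [← sub_div, sub_sub_sub_cancel_right, abs_div, abs_of_pos (pow_pos hK0 _),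
          div_le_iff₀ (pow_pos hK0 _)]
        refine e3.trans ?_
        rw [← add_assoc, pow_add, mul_comm]
        gcongr
        exact u4.trans (by gcongr)
      · simp only [cx]
        rw [← sub_div, ← inner_sub_right, sub_sub_sub_cancel_right, abs_div,
          abs_of_pos (pow_pos hK0 _), div_le_iff₀ (pow_pos hK0 _)]
        refine (abs_inner_le O _ _).trans ((e4 _).trans ?_)
        rw [← add_assoc, pow_add, mul_comm (K ^ (b + a)), ← mul_assoc]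
        gcongr ?_ * _
        calc (n : ℝ) * K ^ u ≤ K * (K * ρ) := by gcongr
          _ = K ^ 2 * ρ := by ring
          _ ≤ _ := by gcongr; exact hp 2 (by omega)
  · exact (((T.nr_nonempty (by omega) (by omega) (T.mem_nr.1 (H.near c₀ h₀ j)).1).image _).mono
      (hsub c₀ h₀ j))
  · have a1 := theta_card H hT (by omega) (by omega) (by omega) hM h₀ j (L j) (hLm j)
    have a3 := T.mm1 (b + a) (b + 2 * a)
    have a4 := T.mm1 b' (b + a)
    have a5 : (((L j).image fun z => z.2.2).card : ℝ) ≤ K ^ (2 * n + 1 + e) * T.mm b' (b + a) := by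
      refine le_of_mul_le_mul_right (a1.trans ?_) (by linarith : 0 < T.mm (b + a) (b + 2 * a))
      calc _ ≤ K ^ n * (K * K ^ n * (T.mm b' (b + a) * T.mm (b + a) (b + 2 * a) * K ^ e)) := by
            gcongr
            · linarith [T.mm1 b' (b + 2 * a + 1)]
            · exact hl _ (by omega)
        _ = _ := by ring
    calc _ ≤ _ := a5
      _ ≤ K ^ (2 * n + 1 + e) *
          (K ^ n * ((T.nr b' (b + a) (cs y j)).image fun z => z.2.2).card) := by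
          gcongr; exact hpt y (hYG hy) j
      _ = K ^ (3 * n + 1 + e) * ((T.nr b' (b + a) (cs y j)).image fun z => z.2.2).card := by ring
      _ ≤ _ := by
          refine mul_le_mul (hp _ (by omega)) (Nat.cast_le.2 (card_le_card fun θ hθ => ?_))
            (Nat.cast_nonneg _) (by linarith)
          exact (@mem_inter _ (_) _ _ _).2
            ⟨mem_biUnion.2 ⟨j, mem_univ _, hθ⟩, hsub y (hYG hy) j hθ⟩
  · have a1 : K ^ (2 * c * a) ≤ K ^ n * (((L 0).image fun z => z.2.2).card : ℝ) :=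
      h3.trans ((hpt c₀ h₀ 0).trans (mul_le_mul_of_nonneg_left
        (Nat.cast_le.2 (card_le_card (hsub c₀ h₀ 0))) (by positivity)))
    refine le_of_mul_le_mul_left (le_trans ?_ a1) (pow_pos hK0 n)
    rw [← Real.rpow_natCast, ← Real.rpow_natCast, ← Real.rpow_mul hK0.le, ← Real.rpow_add hK0]
    exact Real.rpow_le_rpow_of_exponent_le hk' (by linarith)
  · refine (cap_mult H hT c₀ _ v₀ fun θ hθ => ?_).trans (hp _ (by omega))
    obtain ⟨a1, a2⟩ := mem_filter.1 hθ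
    obtain ⟨z, hz, rfl⟩ := mem_image.1 a1
    obtain ⟨b1, c, hc, b2⟩ := hLm 0 z hz
    exact ⟨⟨c, hc, z, T.mem_nr.2 ⟨b1, htr c hc 0 z b2⟩, rfl⟩, a2⟩
  · obtain ⟨z, hz, rfl⟩ := mem_image.1 hθ
    obtain ⟨-, c, hc, b2⟩ := hLm j z hz
    exact (dv_le H hT (by omega) h₀ hc (htr c hc j z b2) l).trans (hΛM.trans hKΓ)
  · choose z hz hzθ using fun j => mem_image.1 (hθ j)
    have := det_ge H hT (hl _ (by omega)) hm (by omega) h₀ z fun j => (hLm j _ (hz j)).2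
    simp only [hzθ] at this
    exact this.trans (mul_le_mul_of_nonneg_right (hp _ (by omega)) (abs_nonneg _))
  · obtain ⟨u, u1, u2, u3, u4⟩ := exists_scale hρ hk' (by omega) hρN
    set S := (T.al (b + a)).filter fun z => z.2.2 = θ ∧ ∃ c ∈ G, z ∈ T.nr b (b + a) c ∧
      |ct T.k b a c₀ c - τ₀| ≤ ρ ∧ ∀ l, |cx O hκ T.k b a c₀ b c l - x₀ l| ≤ ρ with hS
    refine ⟨S.image (cx O hκ T.k b a c₀ (b + a)), ?_, fun y hy hθy t1 x1 => ?_⟩
    · have a1 := tube_card H hT hM h₀ u1 u2 hρ u3 θ x₀ τ₀ S fun z hz => (mem_filter.1 hz).2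
      have a2 := h4 u u1 u2
      have a3 := T.a0 (b + a)
      have a4 : T.Λ ^ ((9 * n + 2) * u + (12 * n + 3)) ≤ K :=
        hl _ (add_le_add (Nat.mul_le_mul_left _ (by omega)) (by omega))
      have a5 : (K ^ u) ^ ((κ : ℝ) * σ) ≤ K ^ n * ρ ^ ((κ : ℝ) * σ) := by
        have hκn : (κ : ℝ) ≤ n := by exact_mod_cast hκ
        have hκ0 : (0 : ℝ) ≤ κ := Nat.cast_nonneg _
        refine (Real.rpow_le_rpow (by positivity) u4 (by positivity)).trans ?_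
        rw [Real.mul_rpow hK0.le (by linarith), ← Real.rpow_natCast]
        gcongr
        nlinarith
      have a6 : (S.card : ℝ) ≤ K ^ (4 * n + 1 + e) * ρ ^ ((κ : ℝ) * σ) := by
        refine le_of_mul_le_mul_right (a1.trans ?_) a3
        have a7 := T.mm1 (b + a) (b + a + u + 1)
        have a8 := T.a0 (b + a + u + 1)
        calc _ ≤ K * K ^ (κ * u + 3 * n) *
              (T.mm (b + a) (b + a + u + 1) * T.a (b + a + u + 1)) := by gcongr
          _ = K ^ (3 * n + 1) *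
              (T.mm (b + a) (b + a + u + 1) * T.a (b + a + u + 1) * K ^ (κ * u)) := by ring
          _ ≤ K ^ (3 * n + 1) * (T.a (b + a) * (K ^ n * ρ ^ ((κ : ℝ) * σ) * K ^ e)) := by
              gcongr K ^ (3 * n + 1) * ?_
              exact a2.trans (by gcongr)
          _ = _ := by ring
      refine (Nat.cast_le.2 card_image_le).trans (a6.trans ?_)
      gcongr
      exact hp _ (by omega)
    · obtain ⟨j', -, hj'⟩ := mem_biUnion.1 hθy
      obtain ⟨z, hz, rfl⟩ := mem_image.1 hj'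
      obtain ⟨b1, b2⟩ := T.mem_nr.1 hz
      have b3 := htr y (hYG hy) j' z b2
      refine ⟨_, mem_image_of_mem _ (mem_filter.2 ⟨b1, rfl, y, hYG hy, T.mem_nr.2 ⟨b1, b3⟩, t1,
        x1⟩), fun l => (near_line H hT (by omega) h₀ (hYG hy) b3 l).trans (by linarith)⟩

set_option synthInstance.maxSize 2048 in
/-- **BRW from Lemma G.** -/
theorem brw_of {n κ : ℕ} (hG : LemG κ) (h1 : 1 ≤ κ) (hκ : κ ≤ n) : BRW n κ := by
  classical
  intro c hc
  obtain ⟨εG, N₀, hεG, hG⟩ := hG (c / 2) (by linarith)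
  set C : ℕ := 2 * n * (n + 1) + 7 * n + 5 with hC
  have hC0 : (0 : ℝ) < C := by positivity
  have hn1 : (1 : ℝ) ≤ n := by exact_mod_cast h1.trans hκ
  refine ⟨min (min 1 (c / n)) (εG / (2 * C)), by positivity, fun M =>
    (good_std M ((9 * n + 2) * M + (12 * n + 6)) N₀).mono ?_⟩
  rintro T ⟨hT, hN₀, hk2⟩ b m₀ a N σ hm₀ hma hM hN hne hbr hnar hσ hσ' H1 H2 H3 H4
  set ε := min (min 1 (c / n)) (εG / (2 * C)) with hε
  have ε1 : ε ≤ 1 := (min_le_left _ _).trans (min_le_left _ _)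
  have ε2 : ε ≤ c / n := (min_le_left _ _).trans (min_le_right _ _)
  have ε3 : ε ≤ εG / (2 * C) := min_le_right _ _
  obtain ⟨hk, hk', hΛ, hMΛ, hnΛ, hΛk⟩ := hT.num
  have ha0 : (0 : ℝ) ≤ a := Nat.cast_nonneg _
  have h2 : 2 ≤ ε * a := le_trans (by push_cast; nlinarith [Nat.cast_nonneg (α := ℝ) m₀]) hma
  have hm : n * m₀ + 2 ≤ a := by
    have : ((n * m₀ + 2 : ℕ) : ℝ) ≤ a := hma.trans (by nlinarith)
    exact_mod_cast this
  set e := ⌈ε * a⌉₊ with he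
  have e1 : ε * a ≤ e := Nat.le_ceil _
  have e2 : (e : ℝ) ≤ 2 * (ε * a) := by linarith [Nat.ceil_lt_add_one (show 0 ≤ ε * a by linarith)]
  have e3 : n * m₀ + 2 ≤ e := by exact_mod_cast hma.trans e1
  have hK0 : (0 : ℝ) < T.k := by linarith
  have hKe : (T.k : ℝ) ^ (ε * a) ≤ (T.k : ℝ) ^ e := by
    rw [← Real.rpow_natCast]; exact Real.rpow_le_rpow_of_exponent_le hk' e1
  have hmn : m₀ ≤ n * m₀ := Nat.le_mul_of_pos_left _ (by omega)
  obtain ⟨O, ζ₀, cs, gl, D⟩ := T.exists_dec hT (b' := b + (n * m₀ + 2)) (a₁ := 2 * a) a h1 hκ hm₀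
    (by omega) (by omega) (by omega) hN hbr (Or.inr ⟨hM, hnar⟩)
  set Γ : ℝ := (T.k : ℝ) ^ (C * e) with hΓ
  have hpos : ∀ u, (0 : ℝ) < (N.image (cell T.k b u)).card := fun u => by
    exact_mod_cast card_pos.2 (image_nonempty.2 hne)
  set z : Lab n κ → ℕ → ℝ := fun y u =>
    (((N.filter fun c => gl c = y).image (cell T.k b (a + u))).card : ℝ) with hz
  set w : ℕ → ℝ := fun u => ((T.k : ℝ) ^ u) ^ (((κ : ℝ) + 1) * σ) with hw
  have hw0 : ∀ u, 0 ≤ w u := fun u => by positivity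
  set E : ℕ := (n * m₀ + 2 + 1) * n * (n + 1) + 3 * n with hE
  have s1 : ∀ u ∈ range (a + 1), ∑ y ∈ N.image gl, z y u * w u ≤
      (T.k : ℝ) ^ (E + e) * (N.image (cell T.k b a)).card := by
    intro u hu
    have hu' : u ≤ a := Nat.lt_succ_iff.1 (mem_range.1 hu)
    have a1 := D.sum_cells hT (by omega) (by omega) (u := u) (by omega)
    rw [Nat.add_sub_cancel_left] at a1
    have a2 := of_lg hT (hpos (a + u)) (hpos a)
      (s := ((n : ℝ) - κ) * u + ((κ : ℝ) + 1) * σ * u) (t := ε * a)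
      (by have := H1 u hu'; simp only [Tw.cc] at this; linarith)
    have a3 : (T.k : ℝ) ^ (((n : ℝ) - κ) * u + ((κ : ℝ) + 1) * σ * u) =
        (T.k : ℝ) ^ ((n - κ) * u) * w u := by
      rw [Real.rpow_add hK0, hw]
      simp only []
      rw [← Real.rpow_natCast, ← Real.rpow_natCast, ← Real.rpow_mul hK0.le]
      push_cast [Nat.cast_sub hκ]
      congr 2; ring
    rw [a3] at a2
    rw [← sum_mul]
    calc _ ≤ (T.k : ℝ) ^ ((n - κ) * u + E) * (N.image (cell T.k b (a + u))).card * w u :=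
          mul_le_mul_of_nonneg_right a1 (hw0 u)
      _ = (T.k : ℝ) ^ E *
          ((N.image (cell T.k b (a + u))).card * ((T.k : ℝ) ^ ((n - κ) * u) * w u)) := by ring
      _ ≤ (T.k : ℝ) ^ E * ((N.image (cell T.k b a)).card * (T.k : ℝ) ^ e) := by
          gcongr (T.k : ℝ) ^ E * ?_
          exact a2.trans (by gcongr)
      _ = _ := by ring
  have s2 : ((N.image (cell T.k b a)).card : ℝ) ≤ ∑ y ∈ N.image gl, z y 0 := by
    simp only [hz, add_zero]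
    rw [sum_card_img]
    refine Nat.cast_le.2 (le_trans (card_le_card ?_) (card_image_le (f := Prod.snd)))
    intro q hq
    obtain ⟨c, hc, rfl⟩ := mem_image.1 hq
    exact mem_image.2 ⟨_, mem_image_of_mem _ hc, rfl⟩
  have s3 : ∑ y ∈ N.image gl, ∑ u ∈ range (a + 1), z y u * w u ≤
      ∑ y ∈ N.image gl, Γ * z y 0 := by
    rw [sum_comm, ← mul_sum]
    refine (sum_le_card_nsmul _ _ _ s1).trans ?_
    rw [card_range, nsmul_eq_mul, ← mul_assoc]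
    refine mul_le_mul ?_ s2 (Nat.cast_nonneg _) (by positivity)
    have a1 : ((a + 1 : ℕ) : ℝ) ≤ T.k := by
      have := hT.k_ge
      exact_mod_cast (by omega : a + 1 ≤ T.k)
    calc _ ≤ (T.k : ℝ) * (T.k : ℝ) ^ (E + e) := by gcongr
      _ = (T.k : ℝ) ^ (E + e + 1) := by ring
      _ ≤ _ := pow_le_pow_right₀ hk' (by
          have b1 : (n * m₀ + 2 + 1) * n * (n + 1) ≤ 2 * e * n * (n + 1) :=
            Nat.mul_le_mul_right _ (Nat.mul_le_mul_right _ (by omega))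
          have b2 : n ≤ n * e := Nat.le_mul_of_pos_right _ (by omega)
          rw [hE, hC]; nlinarith)
  obtain ⟨y, hy, hyz⟩ := exists_le_of_sum_le (image_nonempty.2 hne) s3
  obtain ⟨c₁, hc₁, rfl⟩ := mem_image.1 hy
  have hmm := fun i j => lt_of_lt_of_le one_pos (T.mm1 i j)
  refine grp_false (D.grp hk (gl c₁)) hT hk2 ⟨c₁, mem_filter.2 ⟨hc₁, rfl⟩⟩ hm hM (c := c / 2)
    (σ := σ) (Γ := Γ) e3 (by linarith) (by linarith) (pow_le_pow_right₀ hk' ?_) ?_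
    (fun u hu => ?_) ?_ ?_ (fun u u1 u2 => ?_) (hG _ σ Γ ?_ (by linarith) (by linarith)
      (one_le_pow₀ hk') ?_)
  · have b2 : n ≤ n * e := Nat.le_mul_of_pos_right _ (by omega)
    rw [hC]; nlinarith
  · rw [le_div_iff₀ (by linarith)] at ε2
    nlinarith
  · refine le_trans ?_ hyz
    exact single_le_sum (f := fun u => z (gl c₁) u * w u)
      (fun u _ => mul_nonneg (Nat.cast_nonneg _) (hw0 u)) (mem_range.2 (Nat.lt_succ_of_le hu))
  · have := of_lg hT (hmm (b + (n * m₀ + 2)) (b + 2 * a + 1))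
      (mul_pos (hmm (b + (n * m₀ + 2)) (b + a)) (hmm (b + a) (b + 2 * a))) (s := 0) (t := ε * a)
      (by rw [T.lg_mul (hmm _ _) (hmm _ _), add_zero]; exact H2)
    rw [Real.rpow_zero, mul_one] at this
    exact this.trans (mul_le_mul_of_nonneg_left hKe (mul_pos (hmm _ _) (hmm _ _)).le)
  · have := of_lg hT one_pos (hmm (b + (n * m₀ + 2)) (b + a)) (s := 2 * (c / 2) * a) (t := 0)
      (by rw [T.lg_one]; simp only [Tw.m] at H3; linarith)
    simpa using this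
  · have := of_lg hT (mul_pos (hmm (b + a) (b + a + u + 1)) (T.a0 (b + a + u + 1))) (T.a0 (b + a))
      (s := ((κ * u : ℕ) : ℝ)) (t := (u : ℝ) * (κ * σ) + ε * a)
      (by
        have := H4 u u1 u2
        rw [T.lg_mul (hmm _ _) (T.a0 _)]
        simp only [Tw.D, Tw.A, Tw.m] at this
        push_cast; linarith)
    rw [Real.rpow_natCast, Real.rpow_add hK0, Real.rpow_mul hK0.le, Real.rpow_natCast] at this
    refine this.trans (mul_le_mul_of_nonneg_left ?_ (T.a0 _).le)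
    gcongr
  · exact hN₀.trans (hT.Λ_ge.2.2.2.trans (le_self_pow₀ hk' (by omega)))
  · rw [hΓ, ← Real.rpow_natCast, ← Real.rpow_natCast, ← Real.rpow_mul hK0.le]
    refine Real.rpow_le_rpow_of_exponent_le hk' ?_
    rw [le_div_iff₀ (by positivity)] at ε3
    push_cast
    nlinarith

end Crest.Agent.N76.Bw
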